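import Vale.Agent.Lib.P158.Uni3

/-!
# P158 (bigeodesics in planar first-passage percolation): no bigeodesic along any line

Let `(t e)` be independent edge weights on the square lattice with a common law `G` on
`[0, ∞)` that is not a point mass (for instance any law without atoms).  Almost surely,
with a single exceptional null set for all lines at once, no geodesic ray, and hence no
bigeodesic, stays within bounded distance of a straight line: there are no real `A`, `B`
(not both zero), `C` and `W` such that all its vertices `(x, y)` satisfy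
`|A x + B y - C| ≤ W`.  The directions form an uncountable family, so this does not follow
from the statement for each fixed direction.

Proof: by the reflection in the diagonal it suffices to treat the strips
`|y - s x - c| ≤ n` with `|s| ≤ 1`.  Choose `a < b` with `G (-∞, a] > 0` and
`G [b, ∞) > 0`.  A barrier across a strip between the columns `m` and `m + L` makes the
edges inside the strip slow and a staircase just above it fast; a geodesic cannot cross a
barrier while it stays in the strip.  For a starting column bound `N`, a bound `K` on `|c|`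
and a stage `W`, consider the mesh of strips with slope `p / Q` and offset `q / Q`, where
`Q = N + (W + 1) (L + 1) + 1`, `|p| ≤ Q`, `|q| ≤ (K + 1) Q`, and width `n + 1`.  The
probability that some strip of the mesh has no barrier in any of the first `W` windows of
`L + 1` columns to the right of `N` is at most `9 (K + 1) Q² (1 - p₀) ^ W`, which tends
to `0`; hence almost surely at some stage `W` every strip of the mesh carries such a
barrier, and the same holds to the left.  On the columns `|x| ≤ Q - 1`, which contain these
windows, every strip `|y - s x - c| ≤ n` with `|s| ≤ 1`, `|c| ≤ K` is contained in the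
strip of the mesh with `p = ⌊s Q⌋`, `q = ⌊c Q⌋`.  A ray in the strip that starts in a
column of absolute value at most `N` leaves every bounded range of columns, so it crosses
one of these barriers while it is inside the mesh strip, a contradiction.
-/

namespace Vale.Agent.Results.P158.H7_AllLinesBigeodesic

open Vale.Agent.Lib.P158 MeasureTheory ProbabilityTheory

theorem result {Ω : Type*} [MeasurableSpace Ω] (P : Measure Ω) [IsProbabilityMeasure P]
    (t : Edge → Ω → ℝ) (hmeas : ∀ e, Measurable (t e)) (hindep : iIndepFun t P)
    (G : Measure ℝ) (hlaw : ∀ e, P.map (t e) = G) (hsupp : G (Set.Iio 0) = 0)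
    (hnd : ∀ c : ℝ, G {c} ≠ 1) :
    ∀ᵐ ω ∂P,
      (∀ v : ℕ → ℤ × ℤ, IsRay (fun e => t e ω) v →
        ¬ ∃ A B C W : ℝ, (A ≠ 0 ∨ B ≠ 0) ∧
          ∀ i, |A * ((v i).1 : ℝ) + B * ((v i).2 : ℝ) - C| ≤ W) ∧
      (∀ v : ℤ → ℤ × ℤ, IsBigeodesic (fun e => t e ω) v →
        ¬ ∃ A B C W : ℝ, (A ≠ 0 ∨ B ≠ 0) ∧
          ∀ i, |A * ((v i).1 : ℝ) + B * ((v i).2 : ℝ) - C| ≤ W) := by
  have hprob : IsProbabilityMeasure G := by
    rw [← hlaw ((0, 0), false)]
    exact Measure.isProbabilityMeasure_map (hmeas _).aemeasurable
  obtain ⟨a, b, hab, hGa, hGb⟩ := exists_lt_of_not_dirac G hnd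
  have h1 := ae_no_ray_strips t hmeas hindep G hlaw hsupp a b hab hGa hGb
  have h2 := ae_no_ray_strips (fun e => t (swapEdge e)) (fun e => hmeas _)
    (hindep.precomp swapEdge_injective) G (fun e => hlaw _) hsupp a b hab hGa hGb
  filter_upwards [h1, h2] with ω hω1 hω2
  have key : ∀ v : ℕ → ℤ × ℤ, IsRay (fun e => t e ω) v →
      ¬ ∃ A B C W : ℝ, (A ≠ 0 ∨ B ≠ 0) ∧
        ∀ i, |A * ((v i).1 : ℝ) + B * ((v i).2 : ℝ) - C| ≤ W := by
    intro v hv
    rintro ⟨A, B, C, W, hAB, hCW⟩
    by_cases h : |A| ≤ |B|
    · have hB : B ≠ 0 := by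
        rintro rfl
        rw [abs_zero] at h
        have hA : A = 0 := abs_eq_zero.mp (le_antisymm h (abs_nonneg A))
        rcases hAB with h1 | h1
        · exact h1 hA
        · exact h1 rfl
      have hB' : 0 < |B| := abs_pos.mpr hB
      obtain ⟨n, hn⟩ := exists_nat_ge (W / |B|)
      apply hω1 v hv
      refine ⟨-A / B, C / B, n, ?_, fun i => ?_⟩
      · rw [abs_div, abs_neg]
        exact div_le_one_of_le₀ h (abs_nonneg B)
      · have e : ((v i).2 : ℝ) - -A / B * ((v i).1 : ℝ) - C / B
            = (A * ((v i).1 : ℝ) + B * ((v i).2 : ℝ) - C) / B := by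
          field_simp
          ring
        rw [e, abs_div]
        exact (div_le_div_of_nonneg_right (hCW i) hB'.le).trans hn
    · push Not at h
      have hA : A ≠ 0 := by
        rintro rfl
        rw [abs_zero] at h
        exact absurd h (not_lt.mpr (abs_nonneg B))
      have hA' : 0 < |A| := abs_pos.mpr hA
      obtain ⟨n, hn⟩ := exists_nat_ge (W / |A|)
      apply hω2 (fun i => (v i).swap) (ray_swap hv)
      refine ⟨-B / A, C / A, n, ?_, fun i => ?_⟩
      · rw [abs_div, abs_neg]
        exact div_le_one_of_le₀ h.le (abs_nonneg A)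
      · simp only [Prod.fst_swap, Prod.snd_swap]
        have e : ((v i).1 : ℝ) - -B / A * ((v i).2 : ℝ) - C / A
            = (A * ((v i).1 : ℝ) + B * ((v i).2 : ℝ) - C) / A := by
          field_simp
          ring
        rw [e, abs_div]
        exact (div_le_div_of_nonneg_right (hCW i) hA'.le).trans hn
  refine ⟨key, fun v hv => ?_⟩
  rintro ⟨A, B, C, W, hAB, hCW⟩
  exact key (fun i : ℕ => v (i : ℤ)) (ray_of_bigeodesic hv) ⟨A, B, C, W, hAB, fun i => hCW i⟩

end Vale.Agent.Results.P158.H7_AllLinesBigeodesic
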