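import Vale.Agent.Lib.P158.Line

/-!
# P158 (bigeodesics in planar first-passage percolation): no bigeodesic along a line

Let `(t e)` be independent edge weights on the square lattice with a common law `G` on
`[0, ∞)` that is not a point mass (for instance any law without atoms), and let
`A x + B y = C` be any line in the plane: `A` and `B` are arbitrary real numbers, not both
zero, so the slope may be irrational.  Almost surely no geodesic ray, and hence no
bigeodesic, stays within bounded distance of a line of this direction: for no `C` and `W`
do all its vertices `(x, y)` satisfy `|A x + B y - C| ≤ W`.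

Proof: by the reflection in the diagonal we may assume `|A| ≤ |B|`, so the strip is
`|y - s x| ≤ n` with `|s| ≤ 1`.  Choose `a < b` with `G (-∞, a] > 0` and `G [b, ∞) > 0`.
A barrier between the columns `m` and `m + L` makes every edge inside the strip slow
(weight at least `b`), except the vertical edges of the two end columns, and makes those
vertical edges and a staircase just above the strip fast (weight at most `a`).  A geodesic
that stays in the strip and crosses the barrier pays at least `b` times the lattice distance
between the two end columns of the strip, while the detour along the staircase costs at most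
`a` times that distance plus a bounded number of steps; for `L` large this is a
contradiction.  Barriers on disjoint blocks of columns are independent and have the same
positive probability, so almost surely they occur arbitrarily far to the right and to the
left, and a path of distinct vertices in the strip has to cross one of them.
-/

namespace Vale.Agent.Results.P158.H7_NoLineBigeodesic

open Vale.Agent.Lib.P158 MeasureTheory ProbabilityTheory

theorem result {Ω : Type*} [MeasurableSpace Ω] (P : Measure Ω) [IsProbabilityMeasure P]
    (t : Edge → Ω → ℝ) (hmeas : ∀ e, Measurable (t e)) (hindep : iIndepFun t P)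
    (G : Measure ℝ) (hlaw : ∀ e, P.map (t e) = G) (hsupp : G (Set.Iio 0) = 0)
    (hnd : ∀ c : ℝ, G {c} ≠ 1) (A B : ℝ) (hAB : A ≠ 0 ∨ B ≠ 0) :
    ∀ᵐ ω ∂P,
      (∀ v : ℕ → ℤ × ℤ, IsRay (fun e => t e ω) v →
        ¬ ∃ C W : ℝ, ∀ i, |A * ((v i).1 : ℝ) + B * ((v i).2 : ℝ) - C| ≤ W) ∧
      (∀ v : ℤ → ℤ × ℤ, IsBigeodesic (fun e => t e ω) v →
        ¬ ∃ C W : ℝ, ∀ i, |A * ((v i).1 : ℝ) + B * ((v i).2 : ℝ) - C| ≤ W) := by
  have hprob : IsProbabilityMeasure G := by
    rw [← hlaw ((0, 0), false)]
    exact Measure.isProbabilityMeasure_map (hmeas _).aemeasurable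
  obtain ⟨a, b, hab, hGa, hGb⟩ := exists_lt_of_not_dirac G hnd
  have key : ∀ᵐ ω ∂P, ∀ v : ℕ → ℤ × ℤ, IsRay (fun e => t e ω) v →
      ¬ ∃ C W : ℝ, ∀ i, |A * ((v i).1 : ℝ) + B * ((v i).2 : ℝ) - C| ≤ W := by
    by_cases h : |A| ≤ |B|
    · have hB : B ≠ 0 := by
        rintro rfl
        rw [abs_zero] at h
        have hA : A = 0 := abs_eq_zero.mp (le_antisymm h (abs_nonneg A))
        rcases hAB with h1 | h1
        · exact h1 hA
        · exact h1 rfl
      exact ae_no_ray_line t hmeas hindep G hlaw hsupp a b hab hGa hGb A B hB h
    · push Not at h
      have hA : A ≠ 0 := by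
        rintro rfl
        rw [abs_zero] at h
        exact absurd h (not_lt.mpr (abs_nonneg B))
      have h2 := ae_no_ray_line (fun e => t (swapEdge e)) (fun e => hmeas _)
        (hindep.precomp swapEdge_injective) G (fun e => hlaw _) hsupp a b hab hGa hGb
        B A hA h.le
      filter_upwards [h2] with ω hω v hv hex
      obtain ⟨C, W, hCW⟩ := hex
      apply hω (fun i => (v i).swap) (ray_swap hv)
      refine ⟨C, W, fun i => ?_⟩
      have h3 := hCW i
      simp only [Prod.fst_swap, Prod.snd_swap]
      rw [add_comm]
      exact h3
  filter_upwards [key] with ω hω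
  refine ⟨hω, fun v hv => ?_⟩
  rintro ⟨C, W, hCW⟩
  exact hω (fun i : ℕ => v (i : ℤ)) (ray_of_bigeodesic hv) ⟨C, W, fun i => hCW i⟩

end Vale.Agent.Results.P158.H7_NoLineBigeodesic
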