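import Vale.Agent.Lib.P158.Sym

/-!
# P158 (bigeodesics in planar first-passage percolation): no bigeodesic in a strip

Let `(t e)` be independent edge weights on the square lattice with a common law `G` on
`[0, ∞)` that is not a point mass (for instance any law without atoms).  Almost surely no
geodesic ray, and hence no bigeodesic, stays in a strip of finite width parallel to a
coordinate axis: neither its second coordinates nor its first coordinates are bounded.

Proof: choose `a < b` with `G (-∞, a] > 0` and `G [b, ∞) > 0`.  A barrier for the strip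
`|y| ≤ W` consists of `L` consecutive columns in which all horizontal edges of the strip
have weight at least `b`, together with a detour (up the first column, along the row `W + 1`,
down the last column) all of whose edges have weight at most `a`.  Inside the strip, crossing
the barrier costs at least `b * L`, the detour costs at most `a * (L + 4 * W + 2)`, which is
smaller once `L` is large; so no geodesic staying in the strip crosses a barrier.  Barriers
placed on disjoint blocks of columns are independent events of equal positive probability, so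
almost surely they occur arbitrarily far to the right and to the left, and a path of distinct
vertices in the strip has to cross one of them.  Vertical strips follow by reflection.
-/

namespace Vale.Agent.Results.P158.H7_NoStripBigeodesic

open Vale.Agent.Lib.P158 MeasureTheory ProbabilityTheory

theorem result {Ω : Type*} [MeasurableSpace Ω] (P : Measure Ω) [IsProbabilityMeasure P]
    (t : Edge → Ω → ℝ) (hmeas : ∀ e, Measurable (t e)) (hindep : iIndepFun t P)
    (G : Measure ℝ) (hlaw : ∀ e, P.map (t e) = G) (hsupp : G (Set.Iio 0) = 0)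
    (hnd : ∀ c : ℝ, G {c} ≠ 1) :
    ∀ᵐ ω ∂P,
      (∀ v : ℕ → ℤ × ℤ, IsRay (fun e => t e ω) v →
        (¬ ∃ W : ℕ, ∀ i, |(v i).2| ≤ W) ∧ (¬ ∃ W : ℕ, ∀ i, |(v i).1| ≤ W)) ∧
      (∀ v : ℤ → ℤ × ℤ, IsBigeodesic (fun e => t e ω) v →
        (¬ ∃ W : ℕ, ∀ i, |(v i).2| ≤ W) ∧ (¬ ∃ W : ℕ, ∀ i, |(v i).1| ≤ W)) := by
  have hprob : IsProbabilityMeasure G := by
    rw [← hlaw ((0, 0), false)]
    exact Measure.isProbabilityMeasure_map (hmeas _).aemeasurable
  obtain ⟨a, b, hab, hGa, hGb⟩ := exists_lt_of_not_dirac G hnd
  have h1 := ae_no_ray t hmeas hindep G hlaw hsupp a b hab hGa hGb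
  have h2 := ae_no_ray (fun e => t (swapEdge e)) (fun e => hmeas _)
    (hindep.precomp swapEdge_injective) G (fun e => hlaw _) hsupp a b hab hGa hGb
  filter_upwards [h1, h2] with ω hω1 hω2
  have key : ∀ v : ℕ → ℤ × ℤ, IsRay (fun e => t e ω) v →
      (¬ ∃ W : ℕ, ∀ i, |(v i).2| ≤ W) ∧ (¬ ∃ W : ℕ, ∀ i, |(v i).1| ≤ W) := by
    intro v hv
    refine ⟨?_, ?_⟩
    · rintro ⟨W, hW⟩
      exact hω1 W v hv hW
    · rintro ⟨W, hW⟩
      exact hω2 W (fun i => (v i).swap) (ray_swap hv) hW
  refine ⟨key, fun v hv => ?_⟩
  have h3 := key (fun i : ℕ => v (i : ℤ)) (ray_of_bigeodesic hv)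
  refine ⟨?_, ?_⟩
  · rintro ⟨W, hW⟩
    exact h3.1 ⟨W, fun i => hW i⟩
  · rintro ⟨W, hW⟩
    exact h3.2 ⟨W, fun i => hW i⟩

end Vale.Agent.Results.P158.H7_NoStripBigeodesic
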